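import Mathlib

/-! Closure properties of finitely presented groups: retracts, finite-index subgroups,
extensions, finite powers. -/

namespace Vale.Agent.P192

open Group

lemma fp_of_section {F H : Type*} [Group F] [Group H] [hF : IsFinitelyPresented F]
    (π : F →* H) (s : H →* F) (hs : ∀ x, π (s x) = x) : IsFinitelyPresented H := by
  classical
  have hfg : Group.FG F := by
    obtain ⟨n, φ, hφ, -⟩ := hF.out
    exact Group.fg_of_surjective hφ
  obtain ⟨S, hS⟩ := hfg.1
  refine IsFinitelyPresented.of_surjective π (fun x => ⟨s x, hs x⟩)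
    ⟨(fun g => g⁻¹ * s (π g)) '' (S : Set F), (Set.toFinite _), ?_⟩
  apply le_antisymm
  · refine Subgroup.normalClosure_le_normal ?_
    rintro _ ⟨g, -, rfl⟩
    simp [MonoidHom.mem_ker, hs]
  · intro x hx
    set N := Subgroup.normalClosure ((fun g => g⁻¹ * s (π g)) '' (S : Set F))
    have heq : (QuotientGroup.mk' N).comp (s.comp π) = QuotientGroup.mk' N := by
      refine MonoidHom.eq_of_eqOn_dense hS ?_
      intro g hg
      exact ((QuotientGroup.eq.mpr (Subgroup.subset_normalClosure ⟨g, hg, rfl⟩) : (g : F ⧸ N) = (s (π g) : F ⧸ N))).symm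
    have := DFunLike.congr_fun heq x
    rw [MonoidHom.mem_ker] at hx
    rw [← QuotientGroup.eq_one_iff]
    simpa [hx] using this.symm

lemma fp_of_free {H : Type*} [Group H] [IsFreeGroup H] [hfg : Group.FG H] :
    IsFinitelyPresented H := by
  classical
  obtain ⟨S, hS⟩ := hfg.1
  let π : FreeGroup S →* H := FreeGroup.lift fun x => (x : H)
  have hπ : Function.Surjective π := by
    rw [← MonoidHom.range_eq_top, eq_top_iff, ← hS, Subgroup.closure_le]
    intro x hx
    exact ⟨FreeGroup.of ⟨x, hx⟩, by simp [π]⟩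
  choose inv hinv using hπ
  let s : H →* FreeGroup S := IsFreeGroup.lift fun a => inv (IsFreeGroup.of a)
  refine fp_of_section π s fun x => ?_
  have : π.comp s = MonoidHom.id H := IsFreeGroup.ext_hom fun a => by simp [s, hinv]
  exact DFunLike.congr_fun this x

theorem fp_subgroup {P : Type*} [Group P] [hP : IsFinitelyPresented P] (H : Subgroup P)
    [H.FiniteIndex] : IsFinitelyPresented H := by
  classical
  obtain ⟨n, φ, hφ, S, hSf, hS⟩ := hP.out
  set H' : Subgroup (FreeGroup (Fin n)) := H.comap φ with hH'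
  have : H'.FiniteIndex := ⟨by
    rw [hH', Subgroup.index_comap_of_surjective _ hφ]; exact Subgroup.FiniteIndex.index_ne_zero⟩
  have hfree : IsFinitelyPresented H' := fp_of_free
  let f : H' →* H := φ.subgroupComap H
  have hf : Function.Surjective f := MonoidHom.subgroupComap_surjective_of_surjective φ H hφ
  let T : Set H' := {y | ∃ q : FreeGroup (Fin n) ⧸ H', ∃ s ∈ S,
    (y : FreeGroup (Fin n)) = q.out⁻¹ * s * q.out}
  have hT : T.Finite := by
    refine Set.Finite.of_finite_image (f := (H'.subtype : H' → FreeGroup (Fin n))) ?_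
      (Subtype.val_injective.injOn)
    refine (((Set.finite_univ : (Set.univ : Set (FreeGroup (Fin n) ⧸ H')).Finite).prod hSf).image
      (fun p => p.1.out⁻¹ * p.2 * p.1.out)).subset ?_
    rintro _ ⟨y, ⟨q, s, hs, hy⟩, rfl⟩
    exact ⟨(q, s), ⟨trivial, hs⟩, hy.symm⟩
  refine IsFinitelyPresented.of_surjective f hf ⟨T, hT, ?_⟩
  apply le_antisymm
  · refine Subgroup.normalClosure_le_normal ?_
    rintro y ⟨q, s, hs, hy⟩
    have h1 : φ s = 1 := by
      rw [← MonoidHom.mem_ker, ← hS]; exact Subgroup.subset_normalClosure hs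
    rw [SetLike.mem_coe, MonoidHom.mem_ker]
    apply Subtype.ext
    change φ y = 1
    simp [hy, h1]
  · intro x hx
    have hx' : (x : FreeGroup (Fin n)) ∈ φ.ker := by
      rw [MonoidHom.mem_ker] at hx ⊢
      exact congrArg Subtype.val hx
    have hle : Subgroup.normalClosure S ≤ (Subgroup.normalClosure T).map H'.subtype := by
      unfold Subgroup.normalClosure
      rw [Subgroup.closure_le]
      intro z hz
      obtain ⟨s, hs, hc⟩ := Group.mem_conjugatesOfSet_iff.mp hz
      obtain ⟨c, rfl⟩ := isConj_iff.mp hc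
      set q : FreeGroup (Fin n) ⧸ H' := QuotientGroup.mk c⁻¹
      obtain ⟨h, hh⟩ := QuotientGroup.mk_out_eq_mul H' c⁻¹
      have hs' : s ∈ φ.ker := hS ▸ Subgroup.subset_normalClosure hs
      have hmem : q.out⁻¹ * s * q.out ∈ H' := by
        refine Subgroup.mem_comap.mpr ?_
        rw [MonoidHom.mem_ker] at hs'
        simp [hs']
      refine ⟨h * ⟨_, hmem⟩ * h⁻¹, ?_, ?_⟩
      · exact Subgroup.Normal.conj_mem Subgroup.normalClosure_normal _
          (Subgroup.subset_normalClosure (show (⟨_, hmem⟩ : H') ∈ T from ⟨q, s, hs, rfl⟩)) h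
      · simp only [map_mul, map_inv, Subgroup.coe_subtype]
        rw [show q.out = c⁻¹ * (h : FreeGroup (Fin n)) from hh]
        group
    rw [← hS] at hx'
    obtain ⟨y, hy, hyx⟩ := hle hx'
    exact (Subtype.ext hyx : y = x) ▸ hy

lemma conj_mul {M : Type*} [Group M] {g x y : M} : g * x * g⁻¹ * (g * y * g⁻¹) = g * (x * y) * g⁻¹ := by
  group

lemma conj_mul' {M : Type*} [Group M] (g : M) {x y : M} :
    g⁻¹ * x * g * (g⁻¹ * y * g) = g⁻¹ * (x * y) * g := by
  group

theorem fp_extension {E Q : Type*} [Group E] [Group Q] (p : E →* Q) (hp : Function.Surjective p)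
    [hN : IsFinitelyPresented p.ker] [hQ : IsFinitelyPresented Q] : IsFinitelyPresented E := by
  classical
  obtain ⟨a, φN, hφN, SN, hSNf, hSN⟩ := hN.out
  obtain ⟨b, φQ, hφQ, SQ, hSQf, hSQ⟩ := hQ.out
  choose lift hlift using fun j : Fin b => hp (φQ (FreeGroup.of j))
  let ψ : (FreeGroup (Fin a ⊕ Fin b)) →* E := FreeGroup.lift
    (Sum.elim (fun i => (φN (FreeGroup.of i) : E)) lift)
  let inl : FreeGroup (Fin a) →* (FreeGroup (Fin a ⊕ Fin b)) := FreeGroup.map Sum.inl
  let inr : FreeGroup (Fin b) →* (FreeGroup (Fin a ⊕ Fin b)) := FreeGroup.map Sum.inr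
  have hψl : ∀ w, ψ (inl w) = (φN w : E) := by
    intro w
    have : ψ.comp inl = p.ker.subtype.comp φN := FreeGroup.ext_hom _ _ fun i => by simp [ψ, inl]
    exact DFunLike.congr_fun this w
  have hψr : ∀ w, p (ψ (inr w)) = φQ w := by
    intro w
    have : (p.comp ψ).comp inr = φQ := FreeGroup.ext_hom _ _ fun i => by simp [ψ, inr, hlift]
    exact DFunLike.congr_fun this w
  let c : (FreeGroup (Fin a ⊕ Fin b)) →* FreeGroup (Fin b) := FreeGroup.lift (Sum.elim (fun _ => 1) FreeGroup.of)
  have hc : ∀ y, p (ψ y) = φQ (c y) := by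
    intro y
    have : p.comp ψ = φQ.comp c := FreeGroup.ext_hom _ _ fun i => by
      rcases i with i | i
      · simp only [MonoidHom.comp_apply, ψ, c, FreeGroup.lift_apply_of, Sum.elim_inl, map_one]
        exact (φN (FreeGroup.of i)).2
      · simp [ψ, c, hlift]
    exact DFunLike.congr_fun this y
  have hψ : Function.Surjective ψ := by
    intro e
    obtain ⟨w, hw⟩ := hφQ (p e)
    have : (ψ (inr w))⁻¹ * e ∈ p.ker := by simp [MonoidHom.mem_ker, hψr, hw]
    obtain ⟨v, hv⟩ := hφN ⟨_, this⟩
    refine ⟨inr w * inl v, ?_⟩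
    rw [map_mul, hψl, hv]
    simp
  choose pre hpre using fun z : p.ker => hφN z
  let corr : {x : (FreeGroup (Fin a ⊕ Fin b)) // p (ψ x) = 1} → (FreeGroup (Fin a ⊕ Fin b)) :=
    fun x => x.1 * (inl (pre ⟨ψ x.1, x.2⟩))⁻¹
  have hcorr : ∀ x, ψ (corr x) = 1 := fun x => by simp [corr, hψl, hpre]
  have hr : ∀ s ∈ SQ, p (ψ (inr s)) = 1 := by
    intro s hs
    rw [hψr, ← MonoidHom.mem_ker, ← hSQ]
    exact Subgroup.subset_normalClosure hs
  have hcj : ∀ (i : Fin a) (j : Fin b),
      p (ψ (inr (FreeGroup.of j) * inl (FreeGroup.of i) * (inr (FreeGroup.of j))⁻¹)) = 1 ∧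
      p (ψ ((inr (FreeGroup.of j))⁻¹ * inl (FreeGroup.of i) * inr (FreeGroup.of j))) = 1 := by
    intro i j
    have h2 : p (φN (FreeGroup.of i) : E) = 1 := (φN (FreeGroup.of i)).2
    simp [hψl, h2]
  let R : Set (FreeGroup (Fin a ⊕ Fin b)) := (inl '' SN ∪ Set.range (fun s : SQ => corr ⟨_, hr s s.2⟩)) ∪
    (Set.range (fun ij : Fin a × Fin b => corr ⟨_, (hcj ij.1 ij.2).1⟩) ∪
     Set.range (fun ij : Fin a × Fin b => corr ⟨_, (hcj ij.1 ij.2).2⟩))
  have : Finite SQ := hSQf.to_subtype
  refine IsFinitelyPresented.of_surjective ψ hψ ⟨R, ?_, ?_⟩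
  · exact ((hSNf.image _).union (Set.finite_range _)).union
      ((Set.finite_range _).union (Set.finite_range _))
  have hRle : Subgroup.normalClosure R ≤ ψ.ker := by
    refine Subgroup.normalClosure_le_normal ?_
    rintro x ((⟨s, hs, rfl⟩ | ⟨s, rfl⟩) | (⟨ij, rfl⟩ | ⟨ij, rfl⟩))
    · have h1 : φN s = 1 := by
        rw [← MonoidHom.mem_ker, ← hSN]; exact Subgroup.subset_normalClosure hs
      simp [MonoidHom.mem_ker, hψl, h1]
    all_goals exact hcorr _
  apply le_antisymm hRle
  intro y hy
  set K := Subgroup.normalClosure R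
  let q : (FreeGroup (Fin a ⊕ Fin b)) →* (FreeGroup (Fin a ⊕ Fin b)) ⧸ K := QuotientGroup.mk' K
  have hcorr' : ∀ x, corr x ∈ R → q x.1 ∈ (q.comp inl).range := by
    intro x hx
    have h1 : q (corr x) = 1 := (QuotientGroup.eq_one_iff _).mpr (Subgroup.subset_normalClosure hx)
    simp only [corr, map_mul, map_inv, mul_inv_eq_one] at h1
    exact ⟨_, h1.symm⟩
  set A := (q.comp inl).range with hA
  have hconj : ∀ g : (FreeGroup (Fin a ⊕ Fin b)), ∀ x ∈ A, q g * x * (q g)⁻¹ ∈ A ∧ (q g)⁻¹ * x * q g ∈ A := by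
    intro g
    induction g using FreeGroup.induction_on with
    | C1 => intro x hx; simp [hx]
    | of t =>
      rcases t with i | j
      · intro x hx
        have : q (FreeGroup.of (Sum.inl i)) ∈ A := ⟨FreeGroup.of i, by simp [inl]⟩
        exact ⟨mul_mem (mul_mem this hx) (inv_mem this), mul_mem (mul_mem (inv_mem this) hx) this⟩
      · rintro x ⟨w, rfl⟩
        have e : inr (FreeGroup.of j) = FreeGroup.of (Sum.inr j) := by simp [inr]
        induction w using FreeGroup.induction_on with
        | C1 => simp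
        | of i =>
          have h1 := hcorr' ⟨_, (hcj i j).1⟩ (Or.inr (Or.inl ⟨(i, j), rfl⟩))
          have h2 := hcorr' ⟨_, (hcj i j).2⟩ (Or.inr (Or.inr ⟨(i, j), rfl⟩))
          simp only [map_mul, map_inv, e] at h1 h2
          exact ⟨h1, h2⟩
        | inv_of i ih =>
          constructor
          · convert inv_mem ih.1 using 1
            rw [map_inv (q.comp inl)]
            group
          · convert inv_mem ih.2 using 1
            rw [map_inv (q.comp inl)]
            group
        | mul u v hu hv =>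
          constructor
          · rw [map_mul, ← conj_mul]
            exact mul_mem hu.1 hv.1
          · rw [map_mul, ← conj_mul' (q (FreeGroup.of (Sum.inr j)))]
            exact mul_mem hu.2 hv.2
    | inv_of t ih =>
      intro x hx
      rw [map_inv, inv_inv (q (FreeGroup.of t))]
      exact ⟨(ih x hx).2, (ih x hx).1⟩
    | mul u v hu hv =>
      intro x hx
      constructor
      · have := (hu _ (hv x hx).1).1
        simpa only [map_mul, mul_inv_rev, mul_assoc] using this
      · have := (hv _ (hu x hx).2).2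
        simpa only [map_mul, mul_inv_rev, mul_assoc] using this
  have : A.Normal := ⟨fun x hx g => by
    obtain ⟨g, rfl⟩ := QuotientGroup.mk'_surjective K g
    exact (hconj g x hx).1⟩
  let h := ((QuotientGroup.mk' A).comp q).comp inr
  have hfac : (QuotientGroup.mk' A).comp q = h.comp c := FreeGroup.ext_hom _ _ fun t => by
    rcases t with i | j
    · simp only [MonoidHom.comp_apply, c, FreeGroup.lift_apply_of, Sum.elim_inl, map_one]
      rw [← MonoidHom.mem_ker, QuotientGroup.ker_mk']
      exact ⟨FreeGroup.of i, by simp [inl]⟩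
    · simp [h, c, inr]
  have hker : φQ.ker ≤ h.ker := by
    rw [← hSQ]
    refine Subgroup.normalClosure_le_normal fun s hs => ?_
    rw [SetLike.mem_coe, MonoidHom.mem_ker]
    simp only [h, MonoidHom.comp_apply]
    rw [← MonoidHom.mem_ker, QuotientGroup.ker_mk']
    exact hcorr' ⟨_, hr s hs⟩ (Or.inl (Or.inr ⟨⟨s, hs⟩, rfl⟩))
  rw [MonoidHom.mem_ker] at hy
  have hcy : c y ∈ h.ker := hker (by rw [MonoidHom.mem_ker, ← hc, hy, map_one])
  have hqy : q y ∈ A := by
    have := DFunLike.congr_fun hfac y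
    rw [MonoidHom.comp_apply, MonoidHom.comp_apply, MonoidHom.mem_ker.mp hcy] at this
    rwa [← MonoidHom.mem_ker, QuotientGroup.ker_mk'] at this
  obtain ⟨w, hw⟩ := hqy
  have hd : (inl w)⁻¹ * y ∈ K := QuotientGroup.eq.mp hw
  have : ψ (inl w) = 1 := by
    have := MonoidHom.mem_ker.mp (hRle hd)
    simpa [hy] using this
  rw [hψl] at this
  have hw1 : w ∈ Subgroup.normalClosure SN := by
    rw [hSN, MonoidHom.mem_ker]; exact Subtype.ext this
  have hw2 : inl w ∈ K := by
    have hle : Subgroup.normalClosure SN ≤ K.comap inl :=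
      Subgroup.normalClosure_le_normal fun s hs =>
        Subgroup.subset_normalClosure (Or.inl (Or.inl ⟨s, hs, rfl⟩))
    exact hle hw1
  simpa using mul_mem hw2 hd

theorem fp_prod {A B : Type*} [Group A] [Group B] [hA : IsFinitelyPresented A]
    [IsFinitelyPresented B] : IsFinitelyPresented (A × B) := by
  let e : A ≃* (MonoidHom.snd A B).ker :=
    { toFun := fun x => ⟨(x, 1), rfl⟩
      invFun := fun y => y.1.1
      left_inv := fun x => rfl
      right_inv := fun y => Subtype.ext (Prod.ext rfl y.2.symm)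
      map_mul' := fun x y => Subtype.ext (Prod.ext rfl (one_mul 1).symm) }
  have := IsFinitelyPresented.equiv e
  exact fp_extension (MonoidHom.snd A B) fun b => ⟨(1, b), rfl⟩

theorem fp_pi {G : Type*} [Group G] [IsFinitelyPresented G] (m : ℕ) :
    IsFinitelyPresented (Fin m → G) := by
  induction m with
  | zero => exact inferInstance
  | succ k ih =>
    have := fp_prod (A := G) (B := Fin k → G)
    exact IsFinitelyPresented.equiv
      ({ Fin.consEquiv fun _ : Fin (k + 1) => G with
         map_mul' := fun x y => by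
           funext i
           refine Fin.cases ?_ ?_ i <;> simp } : G × (Fin k → G) ≃* (Fin (k + 1) → G))

end Vale.Agent.P192
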