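import Mathlib

/-! Consecutive three-cycles generate the alternating group. -/

namespace Vale.Agent.P192

open Equiv

variable {α : Type*} [DecidableEq α]

/-- The permutation `a ↦ b ↦ c ↦ a`. -/
def cyc3 (a b c : α) : Perm α := swap a b * swap b c

lemma cyc3_conj (p : Perm α) (a b c : α) : p * cyc3 a b c * p⁻¹ = cyc3 (p a) (p b) (p c) := by
  simp only [cyc3]
  rw [swap_apply_apply, swap_apply_apply]
  group

lemma cyc3_rot {a b c : α} (hab : a ≠ b) (hac : a ≠ c) (hbc : b ≠ c) :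
    cyc3 a b c = cyc3 b c a := by
  ext x; simp only [cyc3, Perm.coe_mul, Function.comp_apply, swap_apply_def]; grind

lemma cyc3_inv {a b c : α} (hab : a ≠ b) (hac : a ≠ c) (hbc : b ≠ c) :
    (cyc3 a b c)⁻¹ = cyc3 c b a := by
  rw [cyc3, cyc3, mul_inv_rev, swap_inv, swap_inv, swap_comm b c, swap_comm a b]

lemma cyc3_apply {a b c : α} (hab : a ≠ b) (hac : a ≠ c) (hbc : b ≠ c) :
    cyc3 a b c a = b ∧ cyc3 a b c b = c ∧ cyc3 a b c c = a ∧
      ∀ x, x ≠ a → x ≠ b → x ≠ c → cyc3 a b c x = x := by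
  refine ⟨?_, ?_, ?_, fun x h1 h2 h3 => ?_⟩ <;>
    simp only [cyc3, Perm.coe_mul, Function.comp_apply, swap_apply_def] <;> grind

lemma cyc3_mem_alternating [Fintype α] {a b c : α} (hab : a ≠ b) (hbc : b ≠ c) :
    cyc3 a b c ∈ alternatingGroup α := by
  rw [Perm.mem_alternatingGroup, cyc3, map_mul, Perm.sign_swap hab, Perm.sign_swap hbc]
  rfl

lemma commutator_cyc3 {a b c d e : α} (hab : a ≠ b) (hac : a ≠ c) (had : a ≠ d) (hae : a ≠ e)
    (hbc : b ≠ c) (hbd : b ≠ d) (hbe : b ≠ e) (hcd : c ≠ d) (hce : c ≠ e) (hde : d ≠ e) :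
    cyc3 a b c * cyc3 c d e * (cyc3 a b c)⁻¹ * (cyc3 c d e)⁻¹ = cyc3 a d c := by
  rw [cyc3_conj, cyc3_inv hcd hce hde]
  ext x; simp only [cyc3, Perm.coe_mul, Function.comp_apply, swap_apply_def]; grind

lemma threeCycles_consecutive {m : ℕ} (hm : 5 ≤ m) (H : Subgroup (Perm (Fin m)))
    (h : ∀ k, ∀ hk : k + 2 < m,
      cyc3 (⟨k, by omega⟩ : Fin m) ⟨k + 1, by omega⟩ ⟨k + 2, hk⟩ ∈ H) :
    alternatingGroup (Fin m) ≤ H := by
  let z : Fin m := ⟨0, by omega⟩
  let o : Fin m := ⟨1, by omega⟩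
  have hzo : z ≠ o := by simp [z, o, Fin.ext_iff]
  have base : ∀ k, ∀ hk : k < m, 2 ≤ k → cyc3 z o ⟨k, hk⟩ ∈ H := by
    intro k
    induction k with
    | zero => omega
    | succ k ih =>
      intro hk hk2
      rcases Nat.lt_or_ge k 2 with h2 | h2
      · obtain rfl : k = 1 := by omega
        exact h 0 (by omega)
      · have ihk := ih (by omega) h2
        by_cases h3 : k + 2 < m
        · set p := cyc3 (⟨k, by omega⟩ : Fin m) ⟨k + 1, by omega⟩ ⟨k + 2, h3⟩
          have hp : p ∈ H := h k h3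
          obtain ⟨e1, -, -, e4⟩ := cyc3_apply (a := (⟨k, by omega⟩ : Fin m))
            (b := ⟨k + 1, by omega⟩) (c := ⟨k + 2, h3⟩) (by simp [Fin.ext_iff])
            (by simp [Fin.ext_iff]) (by simp [Fin.ext_iff])
          have := mul_mem (mul_mem hp ihk) (inv_mem hp)
          rw [cyc3_conj, e4 z (by simp [z, Fin.ext_iff]; omega) (by simp [z, Fin.ext_iff])
            (by simp [z, Fin.ext_iff]), e4 o (by simp [o, Fin.ext_iff]; omega)
            (by simp [o, Fin.ext_iff]; omega) (by simp [o, Fin.ext_iff]), e1] at this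
          exact this
        · obtain ⟨l, rfl⟩ : ∃ l, k = l + 1 := ⟨k - 1, by omega⟩
          set p := cyc3 (⟨l, by omega⟩ : Fin m) ⟨l + 1, by omega⟩ ⟨l + 1 + 1, hk⟩
          have hp : p ∈ H := h l (by omega)
          obtain ⟨-, e2, -, e4⟩ := cyc3_apply (a := (⟨l, by omega⟩ : Fin m))
            (b := ⟨l + 1, by omega⟩) (c := ⟨l + 1 + 1, hk⟩) (by simp [Fin.ext_iff])
            (by simp [Fin.ext_iff]; omega) (by simp [Fin.ext_iff])
          have := mul_mem (mul_mem hp ihk) (inv_mem hp)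
          rw [cyc3_conj, e4 z (by simp [z, Fin.ext_iff]; omega) (by simp [z, Fin.ext_iff])
            (by simp [z, Fin.ext_iff]), e4 o (by simp [o, Fin.ext_iff]; omega)
            (by simp [o, Fin.ext_iff]; omega) (by simp [o, Fin.ext_iff]), e2] at this
          exact this
  have base' : ∀ x, x ≠ z → x ≠ o → cyc3 z o x ∈ H := fun x h1 h2 =>
    base x x.2 (by simp only [z, o, ne_eq, Fin.ext_iff] at h1 h2; omega)
  have b1 : ∀ a b, a ≠ z → a ≠ o → b ≠ z → b ≠ o → a ≠ b → cyc3 o a b ∈ H := by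
    intro a b ha1 ha2 hb1 hb2 hab
    obtain ⟨e1, e2, -, e4⟩ := cyc3_apply hzo ha1.symm ha2.symm
    have := mul_mem (mul_mem (base' a ha1 ha2) (base' b hb1 hb2)) (inv_mem (base' a ha1 ha2))
    rwa [cyc3_conj, e1, e2, e4 b hb1 hb2 hab.symm] at this
  have out : ∀ a b : Fin m, ∃ x, x ≠ z ∧ x ≠ o ∧ x ≠ a ∧ x ≠ b := by
    intro a b
    have : (({z, o, a, b} : Finset (Fin m))).card < (Finset.univ : Finset (Fin m)).card := by
      refine lt_of_le_of_lt Finset.card_le_four ?_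
      simp; omega
    obtain ⟨x, -, hx⟩ := Finset.exists_mem_notMem_of_card_lt_card this
    simp only [Finset.mem_insert, Finset.mem_singleton, not_or] at hx
    exact ⟨x, hx⟩
  have b0 : ∀ a b, a ≠ z → a ≠ o → b ≠ z → b ≠ o → a ≠ b → cyc3 z a b ∈ H := by
    intro a b ha1 ha2 hb1 hb2 hab
    obtain ⟨x, hx1, hx2, hxa, hxb⟩ := out a b
    obtain ⟨-, -, -, e4⟩ := cyc3_apply hzo hx1.symm hx2.symm
    have hinv : ∀ y w, cyc3 z o x y = w → (cyc3 z o x)⁻¹ w = y := by
      intro y w h; rw [← h]; exact (cyc3 z o x).symm_apply_apply y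
    have := mul_mem (mul_mem (inv_mem (base' x hx1 hx2)) (b1 a b ha1 ha2 hb1 hb2 hab))
      (base' x hx1 hx2)
    have e : ∀ y, y ≠ z → y ≠ o → y ≠ x → (cyc3 z o x)⁻¹ y = y :=
      fun y h1 h2 h3 => hinv y y (e4 y h1 h2 h3)
    have h' := cyc3_conj ((cyc3 z o x)⁻¹) o a b
    rw [inv_inv, hinv z o (cyc3_apply hzo hx1.symm hx2.symm).1, e a ha1 ha2 hxa.symm,
      e b hb1 hb2 hxb.symm] at h'
    rwa [h'] at this
  have bg : ∀ a b c, a ≠ z → a ≠ o → b ≠ z → b ≠ o → c ≠ z → c ≠ o → a ≠ b → a ≠ c → b ≠ c →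
      cyc3 a b c ∈ H := by
    intro a b c ha1 ha2 hb1 hb2 hc1 hc2 hab hac hbc
    obtain ⟨-, e2, -, e4⟩ := cyc3_apply hzo ha1.symm ha2.symm
    have := mul_mem (mul_mem (base' a ha1 ha2) (b1 b c hb1 hb2 hc1 hc2 hbc))
      (inv_mem (base' a ha1 ha2))
    rwa [cyc3_conj, e2, e4 b hb1 hb2 hab.symm, e4 c hc1 hc2 hac.symm] at this
  have bzo : ∀ b c, z ≠ b → z ≠ c → b ≠ c → cyc3 z b c ∈ H := by
    intro b c h1 h2 h3
    by_cases hb : b = o
    · subst hb; exact base' c h2.symm h3.symm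
    by_cases hc : c = o
    · subst hc
      rw [← cyc3_rot h2.symm (Ne.symm hb) h1, ← cyc3_inv (Ne.symm h1) hb h2]
      · apply inv_mem
        rw [cyc3_rot (Ne.symm h1) hb h2]
        exact base' b h1.symm hb
    exact b0 b c h1.symm hb h2.symm hc h3
  rw [← Perm.closure_three_cycles_eq_alternating, Subgroup.closure_le]
  intro g (hg : g.IsThreeCycle)
  have hne : g.support.Nonempty := Finset.card_pos.mp (by rw [hg.card_support]; omega)
  obtain ⟨a, ha⟩ := hne
  have hnd := hg.nodup_iff_mem_support.mpr ha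
  have hge := hg.eq_swap_mul_swap_iff_mem_support.mpr ha
  simp only [List.nodup_cons, List.mem_cons, List.not_mem_nil, or_false, not_or,
    List.nodup_nil, and_true, not_false_eq_true] at hnd
  obtain ⟨⟨hab, hac⟩, hbc⟩ := hnd
  generalize g a = b at *
  generalize g b = c at *
  change g = cyc3 a b c at hge
  rw [hge, SetLike.mem_coe]
  by_cases hz : a = z
  · subst hz; exact bzo b c hab hac hbc
  by_cases hz' : b = z
  · subst hz'; rw [cyc3_rot hab hac hbc]; exact bzo c a hbc (Ne.symm hab) (Ne.symm hac)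
  by_cases hz'' : c = z
  · subst hz''; rw [← cyc3_rot (Ne.symm hac) (Ne.symm hbc) hab]
    exact bzo a b (Ne.symm hac) (Ne.symm hbc) hab
  by_cases ho : a = o
  · subst ho; exact b1 b c hz' (Ne.symm hab) hz'' (Ne.symm hac) hbc
  by_cases ho' : b = o
  · subst ho'; rw [cyc3_rot hab hac hbc]; exact b1 c a hz'' (Ne.symm hbc) hz ho (Ne.symm hac)
  by_cases ho'' : c = o
  · subst ho''; rw [← cyc3_rot (Ne.symm hac) (Ne.symm hbc) hab]
    exact b1 a b hz ho hz' ho' hab
  exact bg a b c hz ho hz' ho' hz'' ho'' hab hac hbc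

lemma exists_alternating_map {m : ℕ} (hm : 5 ≤ m) {a b i j : Fin m} (hab : a ≠ b) (hij : i ≠ j) :
    ∃ p ∈ alternatingGroup (Fin m), p a = i ∧ p b = j := by
  let q : Perm (Fin m) := swap a i
  let p0 : Perm (Fin m) := swap (q b) j * q
  have hqb : q b ≠ i := fun h => hab (q.injective (by rw [h]; simp [q]))
  have h1 : p0 a = i := by
    simp [p0, q, swap_apply_of_ne_of_ne hqb.symm hij]
  have h2 : p0 b = j := by simp [p0]
  rcases Int.units_eq_one_or (Perm.sign p0) with hs | hs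
  · exact ⟨p0, Perm.mem_alternatingGroup.mpr hs, h1, h2⟩
  · have : (({i, j} : Finset (Fin m))ᶜ).card ≥ 2 := by
      rw [Finset.card_compl, Finset.card_pair hij]; simp; omega
    obtain ⟨x, hx, y, hy, hxy⟩ := Finset.one_lt_card.mp (show 1 < _ from this)
    simp only [Finset.mem_compl, Finset.mem_insert, Finset.mem_singleton, not_or] at hx hy
    refine ⟨swap x y * p0, ?_, ?_, ?_⟩
    · rw [Perm.mem_alternatingGroup, map_mul, Perm.sign_swap hxy, hs]; rfl
    · simp [h1, swap_apply_of_ne_of_ne (Ne.symm hx.1) (Ne.symm hy.1)]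
    · simp [h2, swap_apply_of_ne_of_ne (Ne.symm hx.2) (Ne.symm hy.2)]

end Vale.Agent.P192
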