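import Mathlib
import Vale.Agent.P192.FP
import Vale.Agent.P192.Perms

/-! Embedding a periodic finitely presented group in a two-generated perfect one. -/

namespace Vale.Agent.P192

open Equiv SemidirectProduct commutatorElement

variable (G : Type) [Group G] (m : ℕ)

/-- Permutations act on tuples by moving coordinates. -/
def permAct : alternatingGroup (Fin m) →* MulAut (Fin m → G) where
  toFun p :=
    { toFun := fun v i => v ((p : Perm (Fin m)).symm i)
      invFun := fun v i => v ((p : Perm (Fin m)) i)
      left_inv := fun v => funext fun i => by simp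
      right_inv := fun v => funext fun i => by simp
      map_mul' := fun v w => rfl }
  map_one' := rfl
  map_mul' p q := rfl

/-- The permutational wreath product of `G` with the alternating group on `m` points. -/
abbrev Wr := (Fin m → G) ⋊[permAct G m] alternatingGroup (Fin m)

/-- The sum of the abelianized coordinates. -/
noncomputable def psiPi : (Fin m → G) →* Abelianization G where
  toFun v := ∏ i, Abelianization.of (v i)
  map_one' := by simp
  map_mul' v w := by simp [Finset.prod_mul_distrib]

/-- The same on the wreath product. -/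
noncomputable def psi : Wr G m →* Abelianization G :=
  SemidirectProduct.lift (psiPi G m) 1 fun p => by
    ext v
    simp only [MonoidHom.comp_apply, MulEquiv.coe_toMonoidHom, MonoidHom.one_apply, map_one,
      MulAut.one_apply]
    exact Equiv.prod_comp (p : Perm (Fin m)).symm fun i => Abelianization.of (v i)

variable {G m}

lemma psi_apply (w : Wr G m) : psi G m w = psiPi G m w.left := by
  simp [psi, SemidirectProduct.lift]

/-- The tuple with `g` at `i` and `g⁻¹` at `j`. -/
def pair (g : G) (i j : Fin m) : Fin m → G := Pi.mulSingle i g * Pi.mulSingle j g⁻¹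

lemma act_single (p : alternatingGroup (Fin m)) (i : Fin m) (g : G) :
    permAct G m p (Pi.mulSingle i g) = Pi.mulSingle ((p : Perm (Fin m)) i) g := by
  funext k
  change (Pi.mulSingle i g : Fin m → G) ((p : Perm (Fin m)).symm k) = _
  simp only [Pi.mulSingle_apply]
  rcases eq_or_ne k ((p : Perm (Fin m)) i) with h | h
  · simp [h]
  · rw [if_neg h, if_neg fun h' => h (by rw [← h']; simp)]

lemma act_pair (p : alternatingGroup (Fin m)) (g : G) (i j : Fin m) :
    permAct G m p (pair g i j) = pair g ((p : Perm (Fin m)) i) ((p : Perm (Fin m)) j) := by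
  simp [pair, map_mul, act_single]

lemma pair_apply {g : G} {i j : Fin m} (hij : i ≠ j) (k : Fin m) :
    pair g i j k = if k = i then g else if k = j then g⁻¹ else 1 := by
  simp only [pair, Pi.mul_apply, Pi.mulSingle_apply]
  split_ifs <;> simp_all

lemma pair_inv {g : G} {i j : Fin m} (hij : i ≠ j) : (pair g i j)⁻¹ = pair g j i := by
  funext k
  rw [Pi.inv_apply, pair_apply hij, pair_apply hij.symm]
  split_ifs <;> simp_all

lemma fill (hm : 5 ≤ m) (S : Subgroup (Wr G m)) (gens : Set G)
    (hgens : Subgroup.closure gens = ⊤) (hA : ∀ p, inr p ∈ S)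
    (hP : ∀ g ∈ gens, ∀ i j : Fin m, i ≠ j → inl (pair g i j) ∈ S) :
    (psi G m).ker ≤ S := by
  let V : Subgroup (Fin m → G) := S.comap inl
  let D : Fin m → Subgroup G := fun i => V.comap (MonoidHom.mulSingle (fun _ => G) i)
  have hD : ∀ i x, x ∈ D i ↔ Pi.mulSingle i x ∈ V := fun i x => Iff.rfl
  have hV : ∀ g ∈ gens, ∀ i j : Fin m, i ≠ j → pair g i j ∈ V := hP
  have third : ∀ i j : Fin m, ∃ k, k ≠ i ∧ k ≠ j := by
    intro i j
    have : (({i, j} : Finset (Fin m))).card < (Finset.univ : Finset (Fin m)).card := by
      refine lt_of_le_of_lt Finset.card_le_two ?_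
      simp; omega
    obtain ⟨x, -, hx⟩ := Finset.exists_mem_notMem_of_card_lt_card this
    simp only [Finset.mem_insert, Finset.mem_singleton, not_or] at hx
    exact ⟨x, hx⟩
  have hnormal : ∀ i, (D i).Normal := by
    intro i
    obtain ⟨j, hj, -⟩ := third i i
    refine ⟨fun x hx g => ?_⟩
    revert x
    have : g ∈ Subgroup.closure gens := hgens ▸ Subgroup.mem_top g
    induction this using Subgroup.closure_induction'' with
    | mem g hg =>
      intro x hx
      have := mul_mem (mul_mem (hV g hg i j hj.symm) ((hD i x).mp hx)) (inv_mem (hV g hg i j hj.symm))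
      rw [hD]
      convert this using 1
      funext k
      simp only [Pi.mul_apply, Pi.inv_apply, pair_apply hj.symm, Pi.mulSingle_apply]
      split_ifs <;> simp_all
    | inv_mem g hg =>
      intro x hx
      have := mul_mem (mul_mem (inv_mem (hV g hg i j hj.symm)) ((hD i x).mp hx)) (hV g hg i j hj.symm)
      rw [hD]
      convert this using 1
      funext k
      simp only [Pi.mul_apply, Pi.inv_apply, pair_apply hj.symm, Pi.mulSingle_apply]
      split_ifs <;> simp_all
    | one => simp
    | mul g h _ _ ihg ihh =>
      intro x hx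
      simpa [mul_assoc] using ihg _ (ihh x hx)
  have hcomm : ∀ i, commutator G ≤ D i := by
    intro i
    have := hnormal i
    rw [commutator_def, Subgroup.commutator_le]
    have key : ∀ g ∈ gens, ∀ h ∈ gens, Commute (QuotientGroup.mk' (D i) g) (QuotientGroup.mk' (D i) h) := by
      intro g hg h hh
      obtain ⟨j, hj, -⟩ := third i i
      obtain ⟨k, hki, hkj⟩ := third i j
      have := mul_mem (mul_mem (mul_mem (hV g hg i j hj.symm) (hV h hh i k hki.symm))
        (inv_mem (hV g hg i j hj.symm))) (inv_mem (hV h hh i k hki.symm))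
      have hmem : g * h * g⁻¹ * h⁻¹ ∈ D i := by
        rw [hD]
        convert this using 1
        funext l
        simp only [Pi.mul_apply, Pi.inv_apply, pair_apply hj.symm, pair_apply hki.symm,
          Pi.mulSingle_apply]
        split_ifs <;> simp_all
      rw [← commutatorElement_eq_one_iff_commute, ← map_commutatorElement, ← MonoidHom.mem_ker,
        QuotientGroup.ker_mk']
      exact hmem
    intro g hgt h hht
    clear hgt hht
    have hc : Commute (QuotientGroup.mk' (D i) g) (QuotientGroup.mk' (D i) h) := by
      have hg : g ∈ Subgroup.closure gens := hgens ▸ Subgroup.mem_top g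
      have hh : h ∈ Subgroup.closure gens := hgens ▸ Subgroup.mem_top h
      induction hg, hh using Subgroup.closure_induction₂ with
      | mem x y hx hy => exact key x hx y hy
      | one_left x _ => simp
      | one_right x _ => simp
      | mul_left x y z _ _ _ hxz hyz => rw [map_mul]; exact hxz.mul_left hyz
      | mul_right x y z _ _ _ hxz hyz => rw [map_mul]; exact hxz.mul_right hyz
      | inv_left x y _ _ h => rw [map_inv]; exact h.inv_left
      | inv_right x y _ _ h => rw [map_inv]; exact h.inv_right
    rw [← commutatorElement_eq_one_iff_commute, ← map_commutatorElement, ← MonoidHom.mem_ker,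
      QuotientGroup.ker_mk'] at hc
    exact hc
  have hall : ∀ g : G, ∀ i j : Fin m, i ≠ j → pair g i j ∈ V := by
    intro g
    have : g ∈ Subgroup.closure gens := hgens ▸ Subgroup.mem_top g
    induction this using Subgroup.closure_induction'' with
    | mem g hg => exact hV g hg
    | inv_mem g hg =>
      intro i j hij
      have h := hV g hg j i hij.symm
      convert h using 1
      funext k
      rw [pair_apply hij, pair_apply hij.symm]
      split_ifs <;> simp_all
    | one => intro i j hij; simp [pair, one_mem]
    | mul g h _ _ ihg ihh =>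
      intro i j hij
      have hc : h * g * h⁻¹ * g⁻¹ ∈ D j :=
        hcomm j (Subgroup.commutator_mem_commutator (Subgroup.mem_top h) (Subgroup.mem_top g))
      have := mul_mem (mul_mem (ihg i j hij) (ihh i j hij)) ((hD _ _).mp hc)
      convert this using 1
      funext k
      simp only [Pi.mul_apply, pair_apply hij, Pi.mulSingle_apply]
      split_ifs <;> simp_all [mul_assoc]
  let z : Fin m := ⟨0, by omega⟩
  have hsupp : ∀ s : Finset (Fin m), ∀ x : Fin m → G, (∀ i ∉ s, i ≠ z → x i = 1) →
      psiPi G m x = 1 → x ∈ V := by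
    intro s
    induction s using Finset.induction with
    | empty =>
      intro x hx hp
      have hx0 : x = Pi.mulSingle z (x z) := by
        funext i
        rcases eq_or_ne i z with h | h
        · subst h; simp
        · simp [Pi.mulSingle_eq_of_ne h, hx i (by simp) h]
      have : Abelianization.of (x z) = 1 := by
        rw [← hp]
        change _ = ∏ i, Abelianization.of (x i)
        rw [Fintype.prod_eq_single z fun i hi => by rw [hx i (by simp) hi, map_one]]
      rw [← MonoidHom.mem_ker, Abelianization.ker_of] at this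
      rw [hx0]
      exact (hD _ _).mp (hcomm z this)
    | insert a t ha ih =>
      intro x hx hp
      by_cases haz : a = z
      · exact ih x (fun i hi hiz => hx i (by simp [hi, hiz, haz]) hiz) hp
      have hmem := hall (x a) a z haz
      have hpp : psiPi G m (pair (x a) a z) = 1 := by
        have hs : ∀ i : Fin m, ∀ y : G, psiPi G m (Pi.mulSingle i y) = Abelianization.of y := by
          intro i y
          change (∏ k, Abelianization.of ((Pi.mulSingle i y : Fin m → G) k)) = _
          rw [Fintype.prod_eq_single i fun k hk => by rw [Pi.mulSingle_eq_of_ne hk, map_one],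
            Pi.mulSingle_eq_same]
        rw [pair, map_mul, hs, hs, map_inv, mul_inv_cancel]
      have := ih (x * (pair (x a) a z)⁻¹) (fun i hi hiz => by
        by_cases hia : i = a
        · subst hia; simp [pair_apply haz]
        · simp [pair_apply haz, hia, hiz, hx i (by simp [hi, hia]) hiz]) (by simp [hp, hpp])
      simpa using mul_mem this hmem
  intro w hw
  rw [MonoidHom.mem_ker, psi_apply] at hw
  have hl : inl w.left ∈ S := hsupp Finset.univ w.left (fun i hi => absurd (Finset.mem_univ i) hi) hw
  have := mul_mem hl (hA w.right)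
  rwa [inl_left_mul_inr_right] at this

lemma perfect_psi (hm : 5 ≤ m) (gens : Set G) (hgens : Subgroup.closure gens = ⊤)
    (c : alternatingGroup (Fin m)) (hc1 : c ≠ 1)
    (hc : (inr c : Wr G m) ∈ ⁅(psi G m).ker, (psi G m).ker⁆)
    (hA : ∀ p, (inr p : Wr G m) ∈ (psi G m).ker)
    (hP : ∀ g ∈ gens, ∀ i j : Fin m, i ≠ j → (inl (pair g i j) : Wr G m) ∈ (psi G m).ker) :
    (psi G m).ker ≤ ⁅(psi G m).ker, (psi G m).ker⁆ := by
  set L := (psi G m).ker
  have hLn : L.Normal := MonoidHom.normal_ker _
  have hA2 : ∀ p, (inr p : Wr G m) ∈ ⁅L, L⁆ := by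
    have hN : ((⁅L, L⁆).comap (inr : alternatingGroup (Fin m) →* Wr G m)).Normal :=
      (Subgroup.commutator_normal L L).comap _
    have : IsSimpleGroup (alternatingGroup (Fin m)) :=
      alternatingGroup.isSimpleGroup (by simpa using hm)
    rcases hN.eq_bot_or_eq_top with h | h
    · exact absurd (Subgroup.mem_bot.mp (h ▸ hc)) hc1
    · intro p
      have : p ∈ (⁅L, L⁆).comap (inr : alternatingGroup (Fin m) →* Wr G m) := h ▸ Subgroup.mem_top p
      exact this
  refine fill hm _ _ hgens hA2 fun y hy i j hij => ?_
  obtain ⟨k, hk1, hk2⟩ : ∃ k : Fin m, k ≠ i ∧ k ≠ j := by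
    have : (({i, j} : Finset (Fin m))).card < (Finset.univ : Finset (Fin m)).card := by
      refine lt_of_le_of_lt Finset.card_le_two ?_
      simp; omega
    obtain ⟨x, -, hx⟩ := Finset.exists_mem_notMem_of_card_lt_card this
    simp only [Finset.mem_insert, Finset.mem_singleton, not_or] at hx
    exact ⟨x, hx⟩
  obtain ⟨q, hq, hq1, hq2⟩ := exists_alternating_map hm hk1 hk2
  have := Subgroup.commutator_mem_commutator (hA ⟨q, hq⟩) (hP y hy k i hk1)
  have e : pair y i j = permAct G m ⟨q, hq⟩ (pair y k i) * (pair y k i)⁻¹ := by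
    funext l
    rw [act_pair, hq1, hq2, Pi.mul_apply, Pi.inv_apply, pair_apply hij, pair_apply hk1,
      pair_apply hk2]
    split_ifs <;> simp_all
  rw [e, map_mul, map_inv, inl_aut, map_inv]
  exact this

lemma pow_card_right (x : Wr G m) : (x ^ Nat.card (alternatingGroup (Fin m))).right = 1 := by
  have := map_pow (rightHom (φ := permAct G m)) x (Nat.card (alternatingGroup (Fin m)))
  simp only [rightHom_eq_right, pow_card_eq_one'] at this
  exact this

lemma wr_pow (x : Wr G m) (N : ℕ)
    (hN : (x ^ Nat.card (alternatingGroup (Fin m))).left ^ N = 1) :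
    x ^ (Nat.card (alternatingGroup (Fin m)) * N) = 1 := by
  rw [pow_mul, ← inl_left_mul_inr_right (x ^ Nat.card (alternatingGroup (Fin m))), pow_card_right,
    map_one, mul_one, ← map_pow, hN, map_one]

lemma torsion_ker (ht : IsMulTorsion G) : IsMulTorsion (psi G m).ker := by
  intro x
  rw [← Submonoid.isOfFinOrder_coe]
  let y := ((x : Wr G m) ^ Nat.card (alternatingGroup (Fin m))).left
  refine isOfFinOrder_iff_pow_eq_one.mpr
    ⟨Nat.card (alternatingGroup (Fin m)) * ∏ i, orderOf (y i),
      Nat.mul_pos Nat.card_pos (Finset.prod_pos fun i _ => (ht _).orderOf_pos), ?_⟩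
  refine wr_pow _ _ (funext fun i => ?_)
  exact orderOf_dvd_iff_pow_eq_one.mp (Finset.dvd_prod_of_mem _ (Finset.mem_univ i))

lemma exponent_ker (h : Monoid.ExponentExists G) : Monoid.ExponentExists (psi G m).ker := by
  obtain ⟨N, hN, hN'⟩ := h
  refine ⟨Nat.card (alternatingGroup (Fin m)) * N, Nat.mul_pos Nat.card_pos hN, fun x => ?_⟩
  exact Subtype.ext (by simpa using wr_pow (x : Wr G m) N (funext fun i => hN' _))

lemma fp_ker [Group.IsFinitelyPresented G] [Finite (Abelianization G)] :
    Group.IsFinitelyPresented (psi G m).ker := by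
  have : (psi G m).ker.FiniteIndex := by
    have : Finite (psi G m).range := inferInstance
    exact Subgroup.finiteIndex_ker _
  have : Group.IsFinitelyPresented (rightHom (φ := permAct G m)).ker := by
    have := fp_pi (G := G) m
    rw [← range_inl_eq_ker_rightHom]
    exact Group.IsFinitelyPresented.equiv (MonoidHom.ofInjective inl_injective)
  have : Group.IsFinitelyPresented (Wr G m) := fp_extension rightHom rightHom_surjective
  exact fp_subgroup _

theorem embed [Group.IsFinitelyPresented G] (ht : IsMulTorsion G) :
    ∃ (L : Type) (_ : Group L), Group.IsFinitelyPresented L ∧ IsMulTorsion L ∧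
      commutator L = ⊤ ∧ (∃ a b : L, Subgroup.closure {a, b} = ⊤) ∧
      (Monoid.ExponentExists G → Monoid.ExponentExists L) ∧
      ∃ f : G →* L, Function.Injective f := by
  classical
  obtain ⟨n, φ, hφ, -⟩ := Group.IsFinitelyPresented.out (G := G)
  have hfgG : Group.FG G := Group.fg_of_surjective hφ
  have : Finite (Abelianization G) := by
    have : Group.FG (Abelianization G) :=
      Group.fg_of_surjective (f := Abelianization.of (G := G)) QuotientGroup.mk_surjective
    refine CommGroup.finite_of_fg_isMulTorsion (G := Abelianization G) fun x => ?_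
    obtain ⟨g, rfl⟩ := QuotientGroup.mk_surjective x
    exact MonoidHom.isOfFinOrder (Abelianization.of (G := G)) (ht g)
  let g : Fin n → G := fun l => φ (FreeGroup.of l)
  have hgens : Subgroup.closure (Set.range g) = ⊤ := by
    rw [eq_top_iff]
    intro x _
    obtain ⟨w, rfl⟩ := hφ x
    have hmap : (⊤ : Subgroup (FreeGroup (Fin n))).map φ ≤ Subgroup.closure (Set.range g) := by
      rw [← FreeGroup.closure_range_of, MonoidHom.map_closure, ← Set.range_comp]
      exact le_rfl
    exact hmap ⟨w, trivial, rfl⟩
  set e := Nat.card (Abelianization G)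
  have he : 0 < e := Nat.card_pos
  obtain ⟨m, hmdef⟩ : ∃ m, m = 2 * (4 * n + e) + 21 := ⟨_, rfl⟩
  have hm : 5 ≤ m := by omega
  let sc : alternatingGroup (Fin m) := ⟨finRotate m, by
    rw [Perm.mem_alternatingGroup, sign_finRotate]
    exact Even.neg_one_pow ⟨(4 * n + e) + 10, by omega⟩⟩
  let pt : (k : ℕ) → k < m → Fin m := fun k h => ⟨k, h⟩
  have hsc : ∀ k, ∀ h : k + 1 < m, (sc : Perm (Fin m)) (pt k (by omega)) = pt (k + 1) h := by
    intro k h
    change finRotate m _ = _
    rw [finRotate_apply]
    apply Fin.ext
    simp [pt, Fin.val_add, Nat.mod_eq_of_lt h]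
  let t : alternatingGroup (Fin m) :=
    ⟨cyc3 (pt 1 (by omega)) (pt 0 (by omega)) (pt 3 (by omega)),
      cyc3_mem_alternating (by simp [pt]) (by simp [pt])⟩
  let v : Fin m → G := fun i =>
    if h : 8 ≤ i.val ∧ (i.val - 8) % 8 = 0 ∧ (i.val - 8) / 8 < n then g ⟨(i.val - 8) / 8, h.2.2⟩
    else if h : 12 ≤ i.val ∧ (i.val - 12) % 8 = 0 ∧ (i.val - 12) / 8 < n then
      (g ⟨(i.val - 12) / 8, h.2.2⟩)⁻¹
    else 1
  have vsupp : ∀ i : Fin m, v i ≠ 1 → 8 ≤ i.val ∧ i.val % 4 = 0 := by
    intro i hi
    by_contra hc
    apply hi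
    simp only [v]
    rw [dif_neg (by omega), dif_neg (by omega)]
  have vP : ∀ l : Fin n, v (pt (8 + 8 * l) (by omega)) = g l := by
    intro l
    simp only [v, pt]
    rw [dif_pos (by omega)]
    congr 1
    apply Fin.ext
    simp
  have vQ : ∀ l : Fin n, v (pt (12 + 8 * l) (by omega)) = (g l)⁻¹ := by
    intro l
    simp only [v, pt]
    rw [dif_neg (by omega), dif_pos (by omega)]
    congr 2
    apply Fin.ext
    simp
  have hv : psiPi G m v = 1 := by
    let P : Fin n → Fin m := fun l => pt (8 + 8 * l) (by omega)
    let Q : Fin n → Fin m := fun l => pt (12 + 8 * l) (by omega)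
    have hP : Function.Injective P := fun a b h => by simp [P, pt, Fin.ext_iff] at h; exact Fin.ext h
    have hQ : Function.Injective Q := fun a b h => by simp [Q, pt, Fin.ext_iff] at h; exact Fin.ext h
    have hdis : Disjoint (Finset.univ.image P) (Finset.univ.image Q) := by
      rw [Finset.disjoint_left]
      simp only [Finset.mem_image, Finset.mem_univ, true_and, P, Q, pt, forall_exists_index]
      rintro a l rfl
      simp [Fin.ext_iff]; omega
    change (∏ i, Abelianization.of (v i)) = 1
    rw [← Finset.prod_subset (Finset.subset_univ (Finset.univ.image P ∪ Finset.univ.image Q))]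
    · rw [Finset.prod_union hdis, Finset.prod_image (hP.injOn), Finset.prod_image (hQ.injOn),
        ← Finset.prod_mul_distrib]
      refine Finset.prod_eq_one fun l _ => ?_
      rw [show v (P l) = g l from vP l, show v (Q l) = (g l)⁻¹ from vQ l]
      simp
    · intro i _ hi
      simp only [Finset.mem_union, Finset.mem_image, Finset.mem_univ, true_and, not_or,
        not_exists] at hi
      simp only [v]
      rw [dif_neg, dif_neg, map_one]
      · rintro ⟨h1, h2, h3⟩; exact hi.2 ⟨_, h3⟩ (Fin.ext (by simp [Q, pt]; omega))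
      · rintro ⟨h1, h2, h3⟩; exact hi.1 ⟨_, h3⟩ (Fin.ext (by simp [P, pt]; omega))
  let S0 : Set (Wr G m) := {inr sc, inl v * inr t}
  set S := Subgroup.closure S0 with hSdef
  have ha : (inr sc : Wr G m) ∈ S := Subgroup.subset_closure (by simp [S0])
  have hb : (inl v * inr t : Wr G m) ∈ S := Subgroup.subset_closure (by simp [S0])
  let s2 : alternatingGroup (Fin m) := sc * sc
  have hs2 : ∀ k, ∀ h : k + 2 < m, (s2 : Perm (Fin m)) (pt k (by omega)) = pt (k + 2) h := by
    intro k h
    change (sc : Perm (Fin m)) ((sc : Perm (Fin m)) _) = _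
    rw [hsc k (by omega), hsc (k + 1) h]
  let t' : alternatingGroup (Fin m) := s2 * t * s2⁻¹
  let v' := permAct G m s2 v
  have ht' : (t' : Perm (Fin m)) = cyc3 (pt 3 (by omega)) (pt 2 (by omega)) (pt 5 (by omega)) := by
    change (s2 : Perm (Fin m)) * _ * (s2 : Perm (Fin m))⁻¹ = _
    rw [cyc3_conj, hs2 1 (by omega), hs2 0 (by omega), hs2 3 (by omega)]
  have hb' : (inl v' * inr t' : Wr G m) ∈ S := by
    have := mul_mem (mul_mem (mul_mem ha ha) hb) (inv_mem (mul_mem ha ha))
    convert this using 1
    rw [inl_aut]
    simp only [t', s2, map_mul, map_inv]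
    group
  have fixedOf : ∀ (x : Fin m → G) (p : alternatingGroup (Fin m)),
      (∀ i, x i ≠ 1 → (p : Perm (Fin m)) i = i) → permAct G m p x = x := by
    intro x p h
    funext i
    change x ((p : Perm (Fin m)).symm i) = x i
    by_cases h1 : x i = 1
    · by_cases h2 : x ((p : Perm (Fin m)).symm i) = 1
      · rw [h1, h2]
      · have := h _ h2
        rw [Equiv.apply_symm_apply] at this
        rw [← this]
    · have := h i h1
      rw [show (p : Perm (Fin m)).symm i = i by rw [Equiv.symm_apply_eq, this]]
  have v'supp : ∀ i : Fin m, v' i ≠ 1 → 10 ≤ i.val ∧ i.val % 4 = 2 ∨ i.val < 2 := by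
    intro i hi
    by_contra hc
    apply hi
    by_cases h2 : i.val < 2
    · exact absurd (Or.inr h2) hc
    change v ((s2 : Perm (Fin m)).symm i) = 1
    rw [show (s2 : Perm (Fin m)).symm i = pt (i.val - 2) (by omega) by
      rw [Equiv.symm_apply_eq, hs2 (i.val - 2) (by omega)]; exact Fin.ext (by simp [pt]; omega)]
    by_contra h1
    have := vsupp _ h1
    simp only [pt] at this
    omega
  have v'low : ∀ i : Fin m, i.val < 2 → v' i = 1 := by
    intro i hi
    change v ((s2 : Perm (Fin m)).symm i) = 1
    have hlast : (s2 : Perm (Fin m)).symm i = pt (m - 2 + i.val) (by omega) := by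
      rw [Equiv.symm_apply_eq]
      change i = finRotate m (finRotate m _)
      rw [finRotate_apply, finRotate_apply]
      apply Fin.ext
      simp [pt, Fin.val_add]
      rw [show m - 2 + i.val + 1 + 1 = i.val + m by omega, Nat.add_mod_right,
        Nat.mod_eq_of_lt i.isLt]
    rw [hlast]
    simp only [v, pt]
    rw [dif_neg (by omega), dif_neg (by omega)]
  have tfix : ∀ i : Fin m, i.val ≠ 1 → i.val ≠ 0 → i.val ≠ 3 → (t : Perm (Fin m)) i = i :=
    fun i h1 h0 h3 => (cyc3_apply (by simp [pt]) (by simp [pt]) (by simp [pt])).2.2.2 i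
      (fun h => h1 (congrArg Fin.val h)) (fun h => h0 (congrArg Fin.val h))
      (fun h => h3 (congrArg Fin.val h))
  have t'fix : ∀ i : Fin m, i.val ≠ 3 → i.val ≠ 2 → i.val ≠ 5 → (t' : Perm (Fin m)) i = i :=
    fun i h1 h0 h3 => by
      rw [ht']
      exact (cyc3_apply (by simp [pt]) (by simp [pt]) (by simp [pt])).2.2.2 i
        (fun h => h1 (congrArg Fin.val h)) (fun h => h0 (congrArg Fin.val h))
        (fun h => h3 (congrArg Fin.val h))
  have c1 : permAct G m t v = v := fixedOf _ _ fun i hi => by
    have := vsupp i hi; exact tfix i (by omega) (by omega) (by omega)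
  have c2 : permAct G m t' v = v := fixedOf _ _ fun i hi => by
    have := vsupp i hi; exact t'fix i (by omega) (by omega) (by omega)
  have v'big : ∀ i : Fin m, v' i ≠ 1 → 10 ≤ i.val ∧ i.val % 4 = 2 := fun i hi =>
    (v'supp i hi).resolve_right fun h => hi (v'low i h)
  have c3 : permAct G m t v' = v' := fixedOf _ _ fun i hi => by
    have := v'big i hi; exact tfix i (by omega) (by omega) (by omega)
  have c4 : permAct G m t' v' = v' := fixedOf _ _ fun i hi => by
    have := v'big i hi; exact t'fix i (by omega) (by omega) (by omega)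
  have cv : Commute v v' := by
    funext i
    by_cases h : v i = 1
    · simp [h]
    · have h' : v' i = 1 := by
        by_contra h'
        have := vsupp i h; have := v'big i h'; omega
      simp [h']
  have comm_of : ∀ (p : alternatingGroup (Fin m)) (x : Fin m → G), permAct G m p x = x →
      Commute (inr p : Wr G m) (inl x) := by
    intro p x h
    have := inl_aut (φ := permAct G m) p x
    rw [h, map_inv, eq_mul_inv_iff_mul_eq] at this
    exact this.symm
  have hcalc : ⁅(inl v * inr t : Wr G m), (inl v' * inr t' : Wr G m)⁆ = (inr ⁅t, t'⁆ : Wr G m) := by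
    rw [map_commutatorElement]
    have k1 := comm_of _ _ c1
    have k2 := comm_of _ _ c2
    have k3 := comm_of _ _ c3
    have k4 := comm_of _ _ c4
    have k5 : Commute (inl v : Wr G m) (inl v') := cv.map inl
    generalize (inl v : Wr G m) = A, (inl v' : Wr G m) = A', (inr t : Wr G m) = T,
      (inr t' : Wr G m) = T' at k1 k2 k3 k4 k5 ⊢
    have e1 : Commute A (A' * T') := k5.mul_right k2.symm
    have e2 : Commute A' T := k3.symm
    simp only [commutatorElement_def, mul_inv_rev]
    calc A * T * (A' * T') * (T⁻¹ * A⁻¹) * (T'⁻¹ * A'⁻¹)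
        = A * (T * A') * (T' * T⁻¹ * A⁻¹) * (T'⁻¹ * A'⁻¹) := by group
      _ = A * A' * (T * T' * T⁻¹) * A⁻¹ * (T'⁻¹ * A'⁻¹) := by rw [k3.eq]; group
      _ = A * A' * (A⁻¹ * (T * T' * T⁻¹)) * (T'⁻¹ * A'⁻¹) := by
        rw [← (((k1.mul_left k2).mul_left k1.inv_left).inv_right).eq]; group
      _ = A' * (T * T' * T⁻¹ * T'⁻¹) * A'⁻¹ := by rw [k5.eq]; group
      _ = T * T' * T⁻¹ * T'⁻¹ := by
        rw [← (((k3.mul_left k4).mul_left k3.inv_left).mul_left k4.inv_left).eq,
          mul_inv_cancel_right]
  have htt : ((⁅t, t'⁆ : alternatingGroup (Fin m)) : Perm (Fin m)) =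
      cyc3 (pt 1 (by omega)) (pt 2 (by omega)) (pt 3 (by omega)) := by
    change (t : Perm (Fin m)) * (t' : Perm (Fin m)) * (t : Perm (Fin m))⁻¹ *
      (t' : Perm (Fin m))⁻¹ = _
    rw [ht']
    apply commutator_cyc3 <;> simp [pt]
  let A' : Subgroup (Perm (Fin m)) :=
    (S.comap inr).map (alternatingGroup (Fin m)).subtype
  have hA : ∀ p : alternatingGroup (Fin m), (inr p : Wr G m) ∈ S := by
    have base : ∀ j, ∀ h : j + 3 < m,
        cyc3 (pt (j + 1) (by omega)) (pt (j + 2) (by omega)) (pt (j + 3) h) ∈ A' := by
      intro j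
      induction j with
      | zero =>
        intro h
        refine ⟨⁅t, t'⁆, ?_, htt⟩
        rw [SetLike.mem_coe, Subgroup.mem_comap, ← hcalc, commutatorElement_def]
        exact mul_mem (mul_mem (mul_mem hb hb') (inv_mem hb)) (inv_mem hb')
      | succ j ih =>
        intro h
        obtain ⟨p, hp, hpe⟩ := ih (by omega)
        refine ⟨sc * p * sc⁻¹, ?_, ?_⟩
        · rw [SetLike.mem_coe, Subgroup.mem_comap, map_mul, map_mul, map_inv]
          exact mul_mem (mul_mem ha hp) (inv_mem ha)
        · rw [map_mul, map_mul, map_inv, hpe]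
          simp only [Subgroup.coe_subtype]
          rw [cyc3_conj, hsc _ (by omega), hsc _ (by omega), hsc _ (by omega)]
    have hle : alternatingGroup (Fin m) ≤ A' := by
      refine threeCycles_consecutive hm A' fun k hk => ?_
      rcases k with - | k
      · obtain ⟨p, hp, hpe⟩ := base 0 (by omega)
        refine ⟨sc⁻¹ * p * sc, ?_, ?_⟩
        · rw [SetLike.mem_coe, Subgroup.mem_comap, map_mul, map_mul, map_inv]
          exact mul_mem (mul_mem (inv_mem ha) hp) ha
        · rw [map_mul, map_mul, map_inv, hpe]
          simp only [Subgroup.coe_subtype]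
          have h0 := cyc3_conj (sc : Perm (Fin m))⁻¹ (pt 1 (by omega)) (pt 2 (by omega))
            (pt 3 (by omega))
          rw [inv_inv] at h0
          rw [h0]
          have hi : ∀ k, ∀ h : k + 1 < m,
              (sc : Perm (Fin m))⁻¹ (pt (k + 1) h) = pt k (by omega) := fun k h => by
            rw [← hsc k h]; exact Equiv.symm_apply_apply _ _
          rw [hi 0 (by omega), hi 1 (by omega), hi 2 (by omega)]
      · exact base k hk
    intro p
    obtain ⟨q, hq, hqe⟩ := hle p.2
    exact (Subtype.ext hqe : q = p) ▸ hq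
  have hvS : (inl v : Wr G m) ∈ S := by
    simpa using mul_mem hb (inv_mem (hA t))
  have conjS : ∀ (p : alternatingGroup (Fin m)) (x : Fin m → G), (inl x : Wr G m) ∈ S →
      (inl (permAct G m p x) : Wr G m) ∈ S := by
    intro p x hx
    rw [inl_aut]
    exact mul_mem (mul_mem (hA p) hx) (hA p⁻¹)
  have hpairs : ∀ y ∈ Set.range g, ∀ i j : Fin m, i ≠ j → (inl (pair y i j) : Wr G m) ∈ S := by
    rintro _ ⟨l, rfl⟩ i j hij
    let P := pt (8 + 8 * l) (by omega)
    let one' := pt 1 (by omega)
    let two' := pt 2 (by omega)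
    have hP1 : P ≠ one' := fun h => by have := congrArg Fin.val h; simp only [P, one', pt] at this; omega
    have hP2 : P ≠ two' := fun h => by have := congrArg Fin.val h; simp only [P, two', pt] at this; omega
    let π : alternatingGroup (Fin m) := ⟨cyc3 P one' two', cyc3_mem_alternating hP1
      (by simp [one', two', pt])⟩
    have hv1 : v one' = 1 := by by_contra h; have := vsupp _ h; simp [one', pt] at this
    have hv2 : v two' = 1 := by by_contra h; have := vsupp _ h; simp [two', pt] at this
    obtain ⟨e1, e2, e3, e4⟩ := cyc3_apply hP1 hP2 (show one' ≠ two' by simp [one', two', pt])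
    have heq : permAct G m π v * v⁻¹ = pair (g l) one' P := by
      funext i
      rw [Pi.mul_apply, Pi.inv_apply, pair_apply hP1.symm]
      change v ((cyc3 P one' two').symm i) * _ = _
      by_cases hi1 : i = one'
      · subst hi1
        rw [show (cyc3 P one' two').symm one' = P by rw [Equiv.symm_apply_eq, e1], hv1]
        simp [P, vP]
      by_cases hiP : i = P
      · subst hiP
        rw [show (cyc3 P one' two').symm P = two' by rw [Equiv.symm_apply_eq, e3], hv2,
          if_neg hP1]
        simp [P, vP]
      by_cases hi2 : i = two'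
      · subst hi2
        rw [show (cyc3 P one' two').symm two' = one' by rw [Equiv.symm_apply_eq, e2], hv1]
        simp [hv2, hi1, hiP]
      rw [show (cyc3 P one' two').symm i = i by rw [Equiv.symm_apply_eq, e4 i hiP hi1 hi2]]
      simp [hi1, hiP]
    have hmem : (inl (pair (g l) one' P) : Wr G m) ∈ S := by
      rw [← heq, map_mul, map_inv]
      exact mul_mem (conjS π v hvS) (inv_mem hvS)
    obtain ⟨q, hq, hq1, hq2⟩ := exists_alternating_map hm hP1.symm hij
    have := conjS ⟨q, hq⟩ _ hmem
    rwa [act_pair, show (q : Perm (Fin m)) one' = i from hq1, hq2] at this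
  set L := (psi G m).ker with hL
  have hSL : S ≤ L := by
    rw [hSdef, Subgroup.closure_le]
    rintro x (rfl | rfl)
    · rw [SetLike.mem_coe, MonoidHom.mem_ker, psi_apply, left_inr, map_one]
    · rw [SetLike.mem_coe, MonoidHom.mem_ker, psi_apply]
      rw [mul_left, left_inl, left_inr, map_one, mul_one, hv]
  have hLS : L ≤ S := fill hm S _ hgens hA hpairs
  have hAL : ∀ p, (inr p : Wr G m) ∈ L := fun p => hSL (hA p)
  have hperf : L ≤ ⁅L, L⁆ := by
    have hC3 : (inr ⁅t, t'⁆ : Wr G m) ∈ ⁅L, L⁆ := by
      have hb1 : (inl v * inr t : Wr G m) ∈ L := hSL hb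
      have hb2 : (inl v' * inr t' : Wr G m) ∈ L := hSL hb'
      exact hcalc ▸ Subgroup.commutator_mem_commutator hb1 hb2
    refine perfect_psi hm _ hgens ⁅t, t'⁆ (fun h1 => ?_) hC3 hAL
      (fun y hy i j hij => hSL (hpairs y hy i j hij))
    rw [h1] at htt
    have := congrArg (fun p : Perm (Fin m) => p (pt 1 (by omega))) htt
    simp only [OneMemClass.coe_one, Perm.one_apply] at this
    rw [(cyc3_apply (by simp [pt]) (by simp [pt]) (by simp [pt])).1] at this
    exact absurd (congrArg Fin.val this) (by simp [pt])
  refine ⟨L, inferInstance, fp_ker, torsion_ker ht, ?_, ?_, exponent_ker, ?_⟩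
  · rw [← Subgroup.map_subtype_inj, Subgroup.map_subtype_commutator, ← MonoidHom.range_eq_map,
      Subgroup.range_subtype]
    exact le_antisymm (Subgroup.commutator_le_self L) hperf
  · refine ⟨⟨inr sc, hSL ha⟩, ⟨inl v * inr t, hSL hb⟩, ?_⟩
    rw [← Subgroup.map_subtype_inj, MonoidHom.map_closure, ← MonoidHom.range_eq_map,
      Subgroup.range_subtype, Set.image_insert_eq, Set.image_singleton]
    exact le_antisymm hSL hLS
  · let d : G →* (Fin m → G) :=
      { toFun := fun x i => if i.val < e then x else 1
        map_one' := by funext i; simp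
        map_mul' := fun x y => by funext i; simp only [Pi.mul_apply]; split_ifs <;> simp }
    refine ⟨((inl : (Fin m → G) →* Wr G m).comp d).codRestrict L fun x => ?_, fun x y h => ?_⟩
    · rw [MonoidHom.mem_ker, psi_apply]
      change ∏ i : Fin m, Abelianization.of (if i.val < e then x else 1) = 1
      simp only [apply_ite (Abelianization.of (G := G)), map_one]
      rw [Finset.prod_ite, Finset.prod_const, Finset.prod_const_one, mul_one]
      have hc : (Finset.univ.filter fun i : Fin m => i.val < e).card = e := by
        rw [show (Finset.univ.filter fun i : Fin m => i.val < e) = Finset.Iio (pt e (by omega)) by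
          ext i; simp [pt, Fin.lt_def], Fin.card_Iio]
      rw [hc]
      exact pow_card_eq_one'
    · have := congrFun (congrArg SemidirectProduct.left (congrArg Subtype.val h)) (pt 0 (by omega))
      simpa [d, pt, he] using this

end Vale.Agent.P192
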